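import Vale.Agent.P193.Assembly.Wiring
import Vale.Agent.P193.Assembly.AnyUniverse
import Vale.Agent.P193.Machine.Existence

/-!
# The Boone–Higman conjecture
-/

namespace Vale.Agent.Results.P193.BooneHigman

universe u

/-- Every finitely generated group with decidable word problem embeds in a finitely presented
simple group. -/
theorem result (G : Type u) [Group G] (n : ℕ) (g : Fin n → G)
    (hg : Subgroup.closure (Set.range g) = ⊤)
    (hd : ComputablePred fun w : List (Fin n × Bool) =>
      (w.map fun a => if a.2 then g a.1 else (g a.1)⁻¹).prod = 1) :
    ∃ (H : Type) (_ : Group H), Group.IsFinitelyPresented H ∧ IsSimpleGroup H ∧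
      ∃ f : G →* H, Function.Injective f :=
  Vale.Agent.P193.embeds_of_conjecture
    (Vale.Agent.P193.booneHigman_of_machineExistence Vale.Agent.P193.machineExistence) G n g hg hd

end Vale.Agent.Results.P193.BooneHigman
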